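import Crest.Agent.X212.Fin37.Defs
import Crest.Agent.X212.Eqv71.Job
import Crest.Agent.X212.Cht98.Jb

/-!
# Row 212, CT-NFO (helper63): deep in a long neck of a job only the terms of the neck survive
-/

set_option autoImplicit false
set_option linter.unusedSectionVars false
noncomputable section
open scoped Manifold ContDiff Topology InnerProductSpace
open MeasureTheory Set Function Filter

namespace Crest.Agent.X212.Nfo63
open An An.Job M Nd18 Wrd81 Eqv71 Cht98

/-- deep points of a long neck are close to the core -/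
theorem deep {ε : ℝ} (hε : 0 < ε) : ∀ᶠ d in atTop, ∀ t b r, 1 / 2 ≤ t → (1 - t) / 2 ≤ ε →
    r ∈ Hs t b → len t b r ∈ Dp (np t b) (nq t b) d → |r| < ε := by
  filter_upwards [eventually_gt_atTop (-len 1 true ε)] with d hd t b r h1 h2 h3 h4
  refine abs_lt.2 ⟨not_le.1 fun k => ?_, not_le.1 fun k => ?_⟩
  · have e1 : len t false r = len 1 false r := len_eq_len_one h1 (by simp [pm]; linarith)
    have e2 := (strictMonoOn_len 1 false).monotoneOn (.inr (show r < 0 by linarith))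
      (.inr (show -ε < 0 by linarith)) k
    have e3 : len 1 false (-ε) = -len 1 true ε := len_neg 1 true ε
    cases b
    · linarith [h4.1 0 rfl]
    · have ht : t < 1 := h3.2.resolve_right fun h : 0 < r => by linarith
      linarith [h4.1 _ (np_true ht), len_false ht r]
  · have e1 : len t true r = len 1 true r := len_eq_len_one h1 (by simp [pm]; linarith)
    have e2 := (strictMonoOn_len 1 true).monotoneOn (.inr hε) (.inr (hε.trans_le k)) k
    cases b
    · have ht : t < 1 := h3.2.resolve_right fun h : r < 0 => by linarith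
      linarith [h4.2 _ (nq_false ht), len_false ht r]
    · linarith [h4.2 0 rfl]

section gen
variable {M ι lam : Type} [TopologicalSpace M] [MeasurableSpace M] [BorelSpace M] [T2Space M]
  [SecondCountableTopology M] [Fintype ι] [Fintype lam] {r n : ℕ}

/-- sums with one live term -/
theorem dsum_one {K : Type} [Fintype K] {p : K → Prop} {τ : ∀ i, p i → Pt M ι lam r n} {j : K}
    (hj : p j) {O : Set M} (h : ∀ i k, i ≠ j → Van0 O (τ i k)) (c : Cfg M ι lam r) {x : M}
    (hx : x ∈ O) : (Pt.dsum p τ).D c x = (τ j hj).D c x ∧ (Pt.dsum p τ).C c x = (τ j hj).C c x :=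
  ⟨(Finset.sum_eq_single j (fun i _ e => (van0_dz fun k => h i k e).D c x hx)
      fun k => (k (Finset.mem_univ _)).elim).trans (dif_pos hj),
    (Finset.sum_eq_single j (fun i _ e => (van0_dz fun k => h i k e).C c x hx)
      fun k => (k (Finset.mem_univ _)).elim).trans (dif_pos hj)⟩

theorem sum_sum {W K V : Type} [AddCommGroup V] [Module ℝ V] (q : W →₀ ℝ) (t : W → K →₀ ℝ)
    (v : K → V) : ((q.sum fun w a => a • t w).sum fun k b => b • v k) =
      q.sum fun w a => a • (t w).sum fun k b => b • v k := by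
  simp only [← Finsupp.linearCombination_apply ℝ (v := v), map_finsuppSum, map_smul]

end gen

variable {Wi : Type} {X : Mf 4} {A κ lam : Type} [Fintype A] [Fintype κ] [Fintype lam]
  [DecidableEq lam] {M : Mark X A κ} {W : World M} {N : ML M lam}
  {Λ : Lns W N} {A' h : Type} [Fintype A'] [DecidableEq A'] [Fintype h] {r n : ℕ}
  {J : Job Wi Λ A' h r n} {α : Type} {l : Filter α} {c : M.Cl} {σ : Cel A'}

theorem cv_q (S : Xs Wi κ lam) {q : α → Wi →₀ ℝ} {q₀ : Wi →₀ ℝ} (hq : St.Cv l q q₀) :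
    St.Cv l (fun i => S.q (q i)) (S.q q₀) := by
  classical
  obtain ⟨T, h1, h2⟩ := hq
  have e : ∀ i, S.q (q i) = S.q q₀ + ∑ w ∈ T, (q i w - q₀ w) • S.ty w := fun i => by
    rw [← sub_eq_iff_eq_add']
    simp only [Xs.q, ← Finsupp.linearCombination_apply ℝ (v := S.ty), ← map_sub]
    rw [Finsupp.linearCombination_apply, Finsupp.sum_of_support_subset _ (s := T) (fun w hw =>
      by_contra fun k => Finsupp.mem_support_iff.1 hw (sub_eq_zero.2 (h1 i w k)))
      (fun w a => a • S.ty w) fun _ _ => zero_smul _ _]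
    rfl
  refine ⟨T.biUnion fun w => (S.ty w).support, fun i k hk => ?_, fun k => ?_⟩ <;>
    simp only [e, Finsupp.add_apply, Finsupp.finsetSum_apply, Finsupp.smul_apply]
  · rw [Finset.sum_eq_zero, add_zero]
    exact fun w hw => by
      rw [Finsupp.notMem_support_iff.1 fun k' => hk (Finset.mem_biUnion.2 ⟨w, hw, k'⟩), smul_zero]
  · simpa using tendsto_const_nhds.add (tendsto_finsetSum T fun w _ =>
      ((h2 w).sub_const (q₀ w)).smul_const (S.ty w k))

variable (hJ : J.OK) (hσ : σ ∈ J.𝒦) {s : α → A' → ℝ} {s₀ : A' → ℝ}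
  (hs : ∀ i, s i ∈ cl σ ∧ Sys.inf (J.Θ (s i)).2 = c.1) (ht : Tendsto s l (𝓝 s₀)) (h0 : s₀ ∈ cl σ)
  {a : A} (h1 : (J.Θ s₀).2 a = 1) {e : Option Bool} (ha : ∀ i, Act J.m c a e (J.Θ (s i)))
include hJ hσ hs ht h0 h1

/-- the field terms vanish deep in a long neck -/
theorem tm_off (w : Wi) : ∀ᶠ d in atTop, ∀ᶠ i in l, J.co w (s i) ≠ 0 →
    ∀ x : Cfg (W.Z c).M (Option κ) (lam ⊕ lam) r, ∀ z ∈ (J.K c a e _ (ha i)).dp d, x.tD (J.B c) (J.G c (s i)).F (Fin37.tm J c w) z = 0 ∧
      x.tC (J.B c) (J.G c (s i)).F (Fin37.tm J c w) z = 0 := by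
  obtain ⟨V, k1, k2⟩ := hJ.tw w
  obtain ⟨a', e1, e2⟩ := hJ.inf σ hσ s₀ (J.cl_dom h0) a h1
  by_cases hV : a ∈ V
  · obtain ⟨s₁, k3, k4⟩ := k2
    exact .of_forall fun _ => ((((continuous_apply a').tendsto _).comp ht).eventually
      (lt_mem_nhds (k3.trans_eq e2.symm))).mono fun i hi k =>
        (k (k4 σ hσ _ (J.cl_dom (hs i).1) a' a e1 hV hi.le)).elim
  by_cases hc : ∃ i, J.co w (s i) ≠ 0
  swap
  · exact .of_forall fun _ => .of_forall fun i k => (hc ⟨i, k⟩).elim
  obtain ⟨j, hj⟩ := hc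
  have ov : J.Ov σ c (s j) := ⟨J.cl_dom (hs j).1, (hs j).2⟩
  have sub := hJ.hw_sub hσ ov k2 hj
  obtain ⟨L, b1, b2, b3⟩ := ((hJ.tp_in hσ ov sub).tm k1).supp (ι := Option κ)
  have m := (act_ok (ha j)).mem
  obtain ⟨ε, h2, h3⟩ := b1.exists_forall_le' (f := fun z => |hZ W.toCaps c a z|)
    (sm_hZ W.toCaps m).continuous.abs.continuousOn (a := 0) fun z hz => by
      obtain ⟨x, hx, rfl⟩ := b2 hz
      rw [hZ_φ W.toCaps m (sub hx)]
      exact abs_pos.2 fun k => hx (mem_biUnion (show a ∈ J.hw \ V from ⟨⟨a', e1⟩, hV⟩)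
        ((M.bn a).s_eq_zero.1 k))
  have k : Tendsto (fun i => (J.Θ (s i)).2 a) l (𝓝 1) := h1 ▸
    (((continuous_apply a).comp (continuous_snd.comp hJ.sm.continuous)).tendsto _).comp ht
  filter_upwards [deep h2, eventually_gt_atTop 0] with d d1 d2
  filter_upwards [k.eventually (lt_mem_nhds (show 1 / 2 < (1 : ℝ) by norm_num)),
    k.eventually (lt_mem_nhds (show 1 - ε < 1 by linarith))] with i i1 i2 _ x z hz
  have hK := hJ.nk c a e _ (ha i)
  have z1 := (J.K c a e _ (ha i)).dp_sub d2 hz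
  refine b3 x _ _ z fun hL => (h3 z hL).not_gt (d1 _ (e.getD false) _ i1.le (by linarith)
    (isNk_target (ha i) hK ▸ z1 :) ?_)
  rw [← isNk_tm (ha i) hK z1, ← isNk_p (ha i) hK, ← isNk_q (ha i) hK]
  exact hz

/-- **deep in a long neck only the terms of the neck survive** -/
theorem loc (hD : Fin37.DJ J) (hν : ∀ i, J.ν a (s i) = 1) {q : α → Wi →₀ ℝ} {T : Finset Wi}
    (hq : ∀ w ∉ T, ∀ i, q i w = 0) : ∃ d, ∀ᶠ i in l, ∀ x, ∀ z ∈ (J.K c a e _ (ha i)).dp d,
      (J.τ c (q i) (s i)).D x z =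
        ((J.xs a).N.pt (J.K c a e _ (ha i)) ((J.xs a).q (q i)) : Pt _ _ _ r n).D x z ∧
      (J.τ c (q i) (s i)).C x z =
        ((J.xs a).N.pt (J.K c a e _ (ha i)) ((J.xs a).q (q i)) : Pt _ _ _ r n).C x z := by
  obtain ⟨d, d1, d2⟩ := ((eventually_gt_atTop 0).and ((eventually_all_finset T).2 fun w _ =>
    tm_off hJ hσ hs ht h0 h1 ha w)).exists
  refine ⟨d, ((eventually_all_finset T).2 d2).mono fun i hi x z hz => ?_⟩
  have z1 := (J.K c a e _ (ha i)).dp_sub d1 hz
  have dj : ∀ j k, j ≠ (a, e) →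
      (J.K c a e _ (ha i)).ψ.target ⊆ (J.K c j.1 j.2 (J.Θ (s i)) k).ψ.targetᶜ := fun j k hj =>
    (hD c (s i) ⟨σ, hσ, hs i⟩ (i := ⟨(a, e), ha i⟩) (j := ⟨j, k⟩)
      fun h => hj (congrArg Subtype.val h).symm).subset_compl_right
  have t0 := dsum_one (p := J.Ac c (s i)) (j := (a, e)) (τ := fun j k =>
    (((J.xs j.1).N.smul (J.ν j.1 (s i))).q1 (J.K c j.1 j.2 _ k) : Pt _ _ _ r n)) (ha i)
    (fun j k hj => (van0_q1 _ _).mono (dj j k hj)) x z1
  have t1 := fun w => dsum_one (p := J.Ac c (s i)) (j := (a, e)) (τ := fun j k =>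
    (fsum (fun T => (J.xs j.1).N.q2 (J.K c j.1 j.2 _ k) T.1) (J.ν j.1 (s i) • (J.xs j.1).ty w) :
      Pt _ _ _ r n)) (ha i)
    (fun j k hj => (van0_fsum (fun T => van0_q2 _ _ _) _).mono (dj j k hj)) x z1
  have e1 : (J.xs a).N.smul 1 = (J.xs a).N := by simp [ND.smul]
  simp only [hν i, one_smul, e1] at t0 t1
  have t2 : ∀ w ∈ (q i).support,
      J.co w (s i) • x.tD (J.B c) (J.G c (s i)).F (Fin37.tm J c w) z = 0 ∧
      J.co w (s i) • x.tC (J.B c) (J.G c (s i)).F (Fin37.tm J c w) z = 0 := fun w hw => by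
    by_cases k : J.co w (s i) = 0
    · rw [k]; exact ⟨zero_smul _ _, zero_smul _ _⟩
    · have := hi w (by_contra fun k' => Finsupp.mem_support_iff.1 hw (hq w k' i)) k x z hz
      rw [this.1, this.2]; exact ⟨smul_zero _, smul_zero _⟩
  refine ⟨congrArg₂ (· + ·) t0.1 (Eq.trans (Finsupp.sum_congr (f := q i) (g1 := fun w b =>
      b • (J.τw c (s i) w).D x z) fun w hw => ?_) (sum_sum (q i) (J.xs a).ty _).symm),
    congrArg₂ (· + ·) t0.2 (Eq.trans (Finsupp.sum_congr (f := q i) (g1 := fun w b =>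
      b • (J.τw c (s i) w).C x z) fun w hw => ?_) (sum_sum (q i) (J.xs a).ty _).symm)⟩
  · exact congrArg (HSMul.hSMul (q i w))
      ((congrArg₂ (· + ·) (t2 w hw).1 (t1 w).1).trans (zero_add _))
  · exact congrArg (HSMul.hSMul (q i w))
      ((congrArg₂ (· + ·) (t2 w hw).2 (t1 w).2).trans (zero_add _))

end Crest.Agent.X212.Nfo63
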