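import Crest.Agent.X212.Nfo63.Loc
import Crest.Agent.X212.Tms63.Sd
import Crest.Agent.X212.Cmp73.Top

/-!
# Row 212, CT-NFO and CT-TMS (helper63)
-/

set_option autoImplicit false
set_option linter.unusedSectionVars false
noncomputable section
open scoped Manifold ContDiff Topology InnerProductSpace
open MeasureTheory Set Function Filter

namespace Crest.Agent.X212.Nfo63
open An An.Job M Nd18

variable {Wi : Type} {X : Mf 4} {A κ lam : Type} [Fintype A] [Fintype κ] [Fintype lam]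
  [DecidableEq lam] {M : Mark X A κ} {W : World M} {N : ML M lam}
  {Λ : Lns W N} {A' h : Type} [Fintype A'] [DecidableEq A'] [Fintype h] {r n : ℕ}
  {J : Job Wi Λ A' h r n}

/-- **CT-TMS** -/
theorem tms (hJ : J.OK) : Cmp73.TMS J := Tms63.tms hJ

/-- **CT-NFO** -/
theorem nfo (hJ : J.OK) (hD : Fin37.DJ J) (Adm : (Wi →₀ ℝ) → Prop) : Cmp73.NFO J Adm :=
  fun _ _ _ _ hF a hc e ha =>
  let ⟨_, hT, _⟩ := hF.co
  let ⟨d, hd⟩ := loc hJ hF.mem (fun i => ⟨(hF.sol i).cell, (hF.sol i).inf⟩) hF.s hF.cell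
    (hF.inf.ge hc.1) ha hD (hF.new a hc).2 fun w hw => (hT w hw).2
  let ⟨S, C, hb⟩ := hF.bd
  ⟨(J.xs a).Y.dim, J.conn_xs a, (hJ.xs a).1.yd, (hJ.xs a).2, fun i => (hF.sol i).sol,
    cv_q _ hF.cv, ⟨d, hd.mono fun _ k => k _⟩, S, C, fun i => ⟨(hb i).g, (hb i).nk a e _⟩⟩

end Crest.Agent.X212.Nfo63
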